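import Crest.Agent.R155.Half
import Crest.Agent.R194.RIP

/-!
Row 155.  Concentration of the parity classes.
-/

set_option autoImplicit false

namespace Crest.Agent.R155

open Equiv

/-- one parity class is too dense -/
def Bad {m : ℕ} (S : Finset (Pos m)) : Prop :=
  (19 / 20 : ℝ) * m < cnt S 0 ∨ (19 / 20 : ℝ) * m < cnt S 1

lemma conc_cnt {m : ℕ} (S : Finset (Pos m)) :
    (cnt S 0 : ℝ) = ∑ u : Fin m, (if ev u ∈ S then (1 : ℝ) else 0) ∧
      (cnt S 1 : ℝ) = ∑ u : Fin m, (if od u ∈ S then (1 : ℝ) else 0) := by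
  have h3 : ∀ b, (cnt S b : ℝ) =
      ∑ z : Pos m, (if z.val % 2 = b then (if z ∈ S then (1 : ℝ) else 0) else 0) := by
    intro b
    simp only [← ite_and, Finset.sum_boole, cnt]
    congr 2
    ext z
    simp [and_comm]
  have h0 : ∀ u : Fin m, (2 * u.val) % 2 = 0 := fun u => by omega
  have h1 : ∀ u : Fin m, (2 * u.val + 1) % 2 = 1 := fun u => by omega
  constructor
  · rw [h3, sum_ev_od]; simp [h0, h1]
  · rw [h3, sum_ev_od]; simp [h0, h1]

lemma conc_card {m : ℕ} (S : Finset (Pos m)) : (S.card : ℝ) =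
    ∑ u : Fin m, ((if lo u ∈ S then (1 : ℝ) else 0) + if hi u ∈ S then (1 : ℝ) else 0) := by
  rw [← sum_lo_hi (fun x => if x ∈ S then (1 : ℝ) else 0)]
  simp

open Classical in
lemma conc_tail {m : ℕ} (a : Fin m → ℝ) (ha : ∀ u, a u ^ 2 ≤ 1) :
    av (fun c : Coin m => if (m : ℝ) / 40 < ∑ u, a u * R194.sgn (c u) then (1 : ℝ) else 0) ≤
      Real.exp (-(m : ℝ) / 3200) := by
  have h := R194.hoeffding a (t := √m / 40) (by positivity)
  have hC : (0 : ℝ) < Fintype.card (Coin m) := by exact_mod_cast Fintype.card_pos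
  have h1 : -(√m / 40) ^ 2 / 2 = -(m : ℝ) / 3200 := by
    rw [div_pow, Real.sq_sqrt (by positivity)]; ring
  have h2 : √m / 40 * √(∑ i, a i ^ 2) ≤ (m : ℝ) / 40 := by
    have : √(∑ i, a i ^ 2) ≤ √m := Real.sqrt_le_sqrt (by
      simpa using Finset.sum_le_sum (s := Finset.univ) fun u _ => ha u)
    calc _ ≤ √m / 40 * √m := by gcongr
      _ = _ := by rw [div_mul_eq_mul_div, Real.mul_self_sqrt (by positivity)]
  rw [h1] at h
  rw [av, div_le_iff₀ hC, Finset.sum_boole, mul_comm]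
  refine le_trans ?_ h
  exact_mod_cast Finset.card_le_card fun c hc => by
    simp only [Finset.mem_filter, Finset.mem_univ, true_and] at hc ⊢
    exact lt_of_le_of_lt h2 hc

open Classical in
/-- Plan: `cnt S' 0 = ∑ u, 1 (ev u ∈ S')`, `cnt S' 1 = ∑ u, 1 (od u ∈ S')` and, with
`a u = 1 (hi u ∈ S) - 1 (lo u ∈ S)`, `2 cnt S' 0 = card S + ∑ a u * sgn (c u)`,
`2 cnt S' 1 = card S - ∑ a u * sgn (c u)` (`mem_stp`, `src_ev`, `src_od`, `sum_lo_hi`).  If `m = 0`
nothing is bad.  `Crest.Agent.R194.hoeffding` with `t = √m / 40` for `a` and `-a`, `∑ a² ≤ m`. -/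
theorem bad_prob {m : ℕ} (σ : St m) (h : 8 * σ.1.card ≤ 15 * m) :
    av (fun c => if Bad (stp c σ).1 then (1 : ℝ) else 0) ≤ 2 * Real.exp (-(m : ℝ) / 3200) := by
  let a : Fin m → ℝ := fun u => (if hi u ∈ σ.1 then (1 : ℝ) else 0) - if lo u ∈ σ.1 then 1 else 0
  have ha : ∀ u, a u ^ 2 ≤ 1 := fun u => by simp only [a]; split_ifs <;> norm_num
  have h1 := conc_tail a ha
  have h2 := conc_tail (fun u => -a u) fun u => by rw [neg_sq]; exact ha u
  have hc : (8 : ℝ) * σ.1.card ≤ 15 * m := by exact_mod_cast h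
  have e0 : ∀ c : Coin m, 2 * (cnt (stp c σ).1 0 : ℝ) = σ.1.card + ∑ u, a u * R194.sgn (c u) := by
    intro c
    rw [(conc_cnt _).1, conc_card, Finset.mul_sum, ← Finset.sum_add_distrib]
    refine Finset.sum_congr rfl fun u _ => ?_
    simp only [mem_stp, src_ev, a, R194.sgn]
    cases c u <;> simp only [if_true, Bool.false_eq_true, if_false] <;> ring
  have e1 : ∀ c : Coin m, 2 * (cnt (stp c σ).1 1 : ℝ) = σ.1.card + ∑ u, -a u * R194.sgn (c u) := by
    intro c
    rw [(conc_cnt _).2, conc_card, Finset.mul_sum, ← Finset.sum_add_distrib]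
    refine Finset.sum_congr rfl fun u _ => ?_
    simp only [mem_stp, src_od, a, R194.sgn]
    cases c u <;> simp only [if_true, Bool.false_eq_true, if_false] <;> ring
  refine le_trans (av_mono fun c => ?_) ((av_add _ _).trans_le ((add_le_add h1 h2).trans_eq
    (two_mul _).symm))
  have h3 := e0 c
  have h4 := e1 c
  by_cases hb : Bad (stp c σ).1
  · rw [if_pos hb]
    rcases hb with hb | hb
    · rw [if_pos (by linarith)]; split_ifs <;> norm_num
    · rw [if_pos (show (m : ℝ) / 40 < ∑ u, -a u * R194.sgn (c u) by linarith)]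
      split_ifs <;> norm_num
  · rw [if_neg hb]; split_ifs <;> norm_num

end Crest.Agent.R155
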