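import Crest.Agent.R155.Phi
import Crest.Agent.R155.Conc

/-!
Row 155.  Contraction of the centred weight.
-/

set_option autoImplicit false

namespace Crest.Agent.R155

open Equiv

/-- Plan: `ex (t + (d+1)) Hq σ = ex t (fun s => av fun c => ex d Hq (stp c s)) σ`
(`ex_add_time`, `ex_one`); for an admissible `s'`, `ex d Hq s' ≤ 19/20 * ex d nsq s' + 1 (Bad s'.1)`
(`half_bound`; in the bad case `Hq ≤ nsq ≤ 1`); `bad_prob`, `ex_mono` with the invariant `Adm j`. -/
lemma hq_bound {d j : ℕ} (hj : 8 * j ≤ 15 * 2 ^ d) {σ : St (2 ^ d)} (h : Adm j σ) (t : ℕ) :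
    ex stp (t + (d + 1)) Hq σ ≤
      19 / 20 * ex stp (t + (d + 1)) nsq σ + 2 * Real.exp (-((2 ^ d : ℕ) : ℝ) / 3200) := by
  classical
  have h1 : ∀ s : St (2 ^ d), Adm j s →
      ex stp d Hq s ≤ 19 / 20 * ex stp d nsq s + if Bad s.1 then 1 else 0 := by
    intro s hs
    by_cases hb : Bad s.1
    · rw [if_pos hb]
      have a1 : ex stp d Hq s ≤ ex stp d (fun _ => 1) s :=
        ex_mono (I := Adm j) Adm.stp (fun s' hs' => (Hq_le_nsq s').trans hs'.2.2.1) d hs
      rw [ex_const] at a1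
      have a2 := ex_nonneg stp d nsq_nonneg s
      linarith
    · rw [if_neg hb, add_zero]
      simp only [Bad, not_or, not_lt] at hb
      refine half_bound s ?_ ?_
      · exact_mod_cast hb.1
      · exact_mod_cast hb.2
  have e : ∀ F : St (2 ^ d) → ℝ, ex stp (t + (d + 1)) F σ =
      ex stp t (fun s => av fun c => ex stp d F (stp c s)) σ := by
    intro F
    rw [show t + (d + 1) = (t + 1) + d by ring, ex_add_time, ex_succ]
  rw [e, e, ← ex_mul_left, ← ex_const (C := Coin (2 ^ d)) stp t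
    (2 * Real.exp (-((2 ^ d : ℕ) : ℝ) / 3200)) σ, ← ex_add]
  refine ex_mono (I := Adm j) Adm.stp (fun s hs => ?_) t h
  refine (av_mono fun c => h1 _ (Adm.stp c s hs)).trans ?_
  rw [av_add, av_mul_left]
  have := bad_prob s (by rw [hs.2.2.2]; exact hj)
  linarith

/-- the discrete renewal inequality.  Plan: strong induction; for `w < 2 D` the bound is `≥ 1`;
`∑ s ∈ range D, (1/2)^(s+1) * (40/39)^(s+1) ≤ 20/19` and `∑ (1/2)^(s+1) ≤ 1`. -/
lemma renewal_ineq {z : ℕ → ℝ} {D : ℕ} {τ : ℝ} (hτ : 0 ≤ τ) (h1 : ∀ w, z w ≤ 1)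
    (h2 : ∀ w, 2 * D ≤ w →
      z w ≤ ∑ s ∈ Finset.range D, 1 / 2 ^ (s + 1) * (19 / 20 * z (w - (s + 1)) + τ)) (w : ℕ) :
    z w ≤ (39 / 40 : ℝ) ^ w / (39 / 40) ^ (2 * D) + 20 * τ := by
  induction w using Nat.strong_induction_on with
  | _ w ih =>
    by_cases hw : w < 2 * D
    · have : (1 : ℝ) ≤ (39 / 40 : ℝ) ^ w / (39 / 40) ^ (2 * D) := by
        rw [le_div_iff₀ (by positivity), one_mul]
        exact pow_le_pow_of_le_one (by norm_num) (by norm_num) hw.le
      linarith [h1 w]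
    · push Not at hw
      set A : ℝ := (39 / 40 : ℝ) ^ w / (39 / 40) ^ (2 * D) with hA
      have hA0 : 0 ≤ A := by positivity
      have g1 : ∀ n : ℕ, ∑ s ∈ Finset.range n, (20 / 39 : ℝ) ^ (s + 1) =
          20 / 19 * (1 - (20 / 39) ^ n) := by
        intro n
        induction n with
        | zero => simp
        | succ n ih => rw [Finset.sum_range_succ, ih]; ring
      have g2 : ∀ n : ℕ, ∑ s ∈ Finset.range n, (1 / 2 : ℝ) ^ (s + 1) = 1 - (1 / 2) ^ n := by
        intro n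
        induction n with
        | zero => simp
        | succ n ih => rw [Finset.sum_range_succ, ih]; ring
      refine (h2 w hw).trans ?_
      have g3 : ∀ s ∈ Finset.range D, 1 / 2 ^ (s + 1) * (19 / 20 * z (w - (s + 1)) + τ) ≤
          19 / 20 * A * (20 / 39 : ℝ) ^ (s + 1) + 20 * τ * (1 / 2 : ℝ) ^ (s + 1) := by
        intro s hs
        have hs' := Finset.mem_range.1 hs
        have a1 := ih (w - (s + 1)) (by omega)
        have a2 : (39 / 40 : ℝ) ^ (w - (s + 1)) / (39 / 40) ^ (2 * D) = A * (40 / 39) ^ (s + 1) := by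
          rw [hA, pow_sub₀ _ (by norm_num) (by omega), ← inv_pow, inv_div]; ring
        have a3 : (20 / 39 : ℝ) ^ (s + 1) = (1 / 2) ^ (s + 1) * (40 / 39) ^ (s + 1) := by
          rw [← mul_pow]; norm_num
        rw [a2] at a1
        rw [a3, ← one_div_pow]
        have a4 : (0 : ℝ) ≤ (1 / 2) ^ (s + 1) := by positivity
        nlinarith [mul_le_mul_of_nonneg_left a1 a4]
      refine (Finset.sum_le_sum g3).trans ?_
      rw [Finset.sum_add_distrib, ← Finset.mul_sum, ← Finset.mul_sum, g1, g2]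
      have b1 : (0 : ℝ) ≤ A * (20 / 39) ^ D := by positivity
      have b2 : (0 : ℝ) ≤ τ * (1 / 2) ^ D := by positivity
      nlinarith

/-- `renewal`, `hq_bound`, `renewal_ineq` -/
theorem contraction {d j : ℕ} (hj : 8 * j ≤ 15 * 2 ^ d) {σ : St (2 ^ d)} (h : Adm j σ) (w : ℕ) :
    ex stp w nsq σ ≤ (39 / 40 : ℝ) ^ w / (39 / 40) ^ (2 * (d + 1)) +
      40 * Real.exp (-((2 ^ d : ℕ) : ℝ) / 3200) := by
  have := renewal_ineq (z := fun w => ex stp w nsq σ) (D := d + 1)
    (τ := 2 * Real.exp (-((2 ^ d : ℕ) : ℝ) / 3200)) (by positivity) (fun w => ?_) (fun w hw => ?_) w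
  · linarith
  · have a1 : ex stp w nsq σ ≤ ex stp w (fun _ => 1) σ :=
      ex_mono (I := Adm j) Adm.stp (fun s' hs' => hs'.2.2.1) w h
    rwa [ex_const] at a1
  · obtain ⟨v, rfl⟩ : ∃ v, w = v + (d + 1) := ⟨w - (d + 1), by omega⟩
    rw [renewal h]
    refine Finset.sum_le_sum fun s hs => mul_le_mul_of_nonneg_left ?_ (by positivity)
    have hs' := Finset.mem_range.1 hs
    have := hq_bound hj h (v + d - s - (d + 1))
    rw [show v + (d + 1) - (s + 1) = v + d - s by omega]
    rwa [show v + d - s - (d + 1) + (d + 1) = v + d - s by omega] at this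

end Crest.Agent.R155
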