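import Crest.Agent.R155.Contr
import Crest.Agent.R155.Cond

/-!
Row 155.  The good event has high probability.
-/

set_option autoImplicit false

namespace Crest.Agent.R155

open Equiv

/-- the error bound of `contraction` -/
noncomputable def err (d T : ℕ) : ℝ :=
  (39 / 40 : ℝ) ^ T / (39 / 40) ^ (2 * (d + 1)) + 40 * Real.exp (-((2 ^ d : ℕ) : ℝ) / 3200)

lemma err_nonneg (d T : ℕ) : 0 ≤ err d T := by unfold err; positivity

lemma good_stp {m : ℕ} (c : Coin m) (s : St m) (κ : ℝ) :
    stp c (s.1, fun x => s.2 x - if x ∈ s.1 then 0 else κ) =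
      ((stp c s).1, fun x => (stp c s).2 x - if x ∈ (stp c s).1 then 0 else κ) := by
  refine Prod.ext rfl (funext fun y => ?_)
  simp only [mem_stp]
  simp only [stp]
  by_cases ht : touch s.1 (half y)
  · simp only [ht, if_true]
  · have h1 : lo (half y) ∉ s.1 := fun h => ht (Or.inl h)
    have h2 : hi (half y) ∉ s.1 := fun h => ht (Or.inr h)
    have h3 : src c y ∉ s.1 := by rcases src_cases c y with e | e <;> rw [e] <;> assumption
    simp only [ht, if_false, h1, h2, h3]
    ring

lemma good_center {m : ℕ} (M : Finset (Pos m)) (p : Pos m → ℝ) (κ : ℝ) :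
    ∀ (t : ℕ) (cs : Fin t → Coin m),
      iter stp t cs (M, fun x => p x - if x ∈ M then 0 else κ) =
        ((iter stp t cs (M, p)).1, fun x => (iter stp t cs (M, p)).2 x -
          if x ∈ (iter stp t cs (M, p)).1 then 0 else κ)
  | 0, _ => rfl
  | t + 1, cs => by
    rw [iter, good_center M p κ t, good_stp]
    rfl

open Classical in
/-- Plan: with `n = 2 * 2^d`, `j = card M`, `un S = fun x => if x ∈ S then 0 else 1 / (n - j)` and
`g = dl a - un M`, one shows by induction on `t` that
`(iter stp t cs (M, g)).2 = (iter stp t cs (M, dl a)).2 - un (iter stp t cs (M, dl a)).1`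
(the marked sets agree by `iter_fst`; `mem_stp`).  `(M, g)` is `Adm j` (`nsq = 1 - 1/(n-j)`).  If
`Good` fails then some value of the centred weight exceeds `1 / (n (n - j)) ≥ 1 / n²`, so
`1 ≤ n⁴ * nsq`; `contraction`. -/
theorem good_fail {d : ℕ} (T : ℕ) {M : Finset (Pos (2 ^ d))} {a : Pos (2 ^ d)} (ha : a ∉ M)
    (hM : 8 * M.card ≤ 15 * 2 ^ d) :
    av (fun cs => if Good T M a cs then (0 : ℝ) else 1) ≤ (2 * 2 ^ d : ℝ) ^ 4 * err d T := by
  set n : ℝ := 2 * 2 ^ d with hn
  have hp : (1 : ℝ) ≤ 2 ^ d := one_le_pow₀ (by norm_num)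
  have hM' : (8 : ℝ) * M.card ≤ 15 * 2 ^ d := by exact_mod_cast hM
  have hj0 : (0 : ℝ) ≤ M.card := by positivity
  have hnj : 0 < n - M.card := by linarith
  have hn0 : 0 < n := by linarith
  set κ : ℝ := 1 / (n - M.card) with hκ
  have hκ0 : 0 < κ := by positivity
  have hsum : ∀ e : ℝ, ∑ x : Pos (2 ^ d), (if x ∈ M then (0 : ℝ) else e) = (n - M.card) * e := by
    intro e
    rw [Finset.sum_ite, Finset.sum_const_zero, zero_add, Finset.sum_const, nsmul_eq_mul]
    congr 1
    have : (Finset.univ.filter fun x : Pos (2 ^ d) => x ∉ M) = Mᶜ := by ext; simp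
    rw [this, Finset.card_compl, Nat.cast_sub (Finset.card_le_univ _), Fintype.card_fin]
    push_cast
    rfl
  have hadm : Adm M.card ((M, fun x => dl a x - if x ∈ M then 0 else κ) : St (2 ^ d)) := by
    refine ⟨fun x hx => ?_, ?_, ?_, rfl⟩
    · have : x ≠ a := fun e => ha (e ▸ hx)
      simp only at hx
      simp [dl, this, hx]
    · simp only [Finset.sum_sub_distrib, hsum, dl, Finset.sum_ite_eq', Finset.mem_univ, if_true]
      rw [hκ]; field_simp; ring
    · have : ∀ x : Pos (2 ^ d), (dl a x - if x ∈ M then 0 else κ) ^ 2 =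
          (if x = a then 1 - 2 * κ else 0) + if x ∈ M then 0 else κ ^ 2 := by
        intro x
        by_cases h1 : x = a
        · subst h1; simp only [dl, if_true, ha, if_false]; ring
        · simp only [dl, h1, if_false]; split_ifs <;> ring
      simp only [nsq, this, Finset.sum_add_distrib, hsum, Finset.sum_ite_eq', Finset.mem_univ, if_true]
      have : (n - M.card) * κ ^ 2 = κ := by rw [hκ]; field_simp
      linarith
  have h1 := contraction hM hadm T
  refine le_trans ?_ (mul_le_mul_of_nonneg_left h1 (by positivity))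
  rw [← ex_mul_left]
  refine av_mono fun cs => ?_
  split_ifs with hg
  · exact mul_nonneg (by positivity) (nsq_nonneg _)
  · simp only [Good, not_forall, not_le] at hg
    obtain ⟨y, hy⟩ := hg
    rw [good_center]
    have e : (1 + 1 / (2 * ((2 ^ d : ℕ) : ℝ))) / (2 * ((2 ^ d : ℕ) : ℝ) - M.card) = κ + κ / n := by
      push_cast
      rw [← hn, hκ]; field_simp
    rw [e] at hy
    have h2 : 1 / n ≤ κ := one_div_le_one_div_of_le hnj (by linarith)
    have h3 : 1 / n / n ≤ (iter stp T cs (M, dl a)).2 y -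
        if y ∈ (iter stp T cs (M, dl a)).1 then 0 else κ := by
      have : 1 / n / n ≤ κ / n := div_le_div_of_nonneg_right h2 hn0.le
      split_ifs <;> linarith
    have h4 := pow_le_pow_left₀ (by positivity) h3 2
    have h5 := Finset.single_le_sum (f := fun x => ((iter stp T cs (M, dl a)).2 x -
        if x ∈ (iter stp T cs (M, dl a)).1 then 0 else κ) ^ 2) (fun _ _ => sq_nonneg _)
        (Finset.mem_univ y)
    calc (1 : ℝ) = n ^ 4 * (1 / n / n) ^ 2 := by field_simp
      _ ≤ _ := mul_le_mul_of_nonneg_left (h4.trans h5) (by positivity)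

open Classical in
/-- union bound -/
theorem goodL_fail {d : ℕ} (T : ℕ) : ∀ l : List (Pos (2 ^ d)), l.Nodup → 8 * l.length ≤ 15 * 2 ^ d →
    av (fun cs => if GoodL T l cs then (0 : ℝ) else 1) ≤
      l.length * ((2 * 2 ^ d : ℝ) ^ 4 * err d T)
  | [], _, _ => by simp [GoodL, av_const]
  | a :: l, hl, hlen => by
    have hl' := List.nodup_cons.1 hl
    rw [List.length_cons] at hlen
    have ih := goodL_fail T l hl'.2 (by omega)
    have h1 := good_fail T (M := l.toFinset) (a := a) (by simpa using hl'.1)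
      (by rw [List.toFinset_card_of_nodup hl'.2]; omega)
    rw [List.length_cons]
    push_cast
    rw [add_mul, one_mul]
    refine le_trans ?_ (add_le_add ih h1)
    rw [← av_add]
    refine av_mono fun cs => ?_
    by_cases a1 : GoodL T l cs <;> by_cases a2 : Good T l.toFinset a cs <;> simp [GoodL, a1, a2]

/-- Plan: `n⁵ (39/40)^(148 (d+1)) = (32 (39/40)^148)^(d+1)` with `32 (39/40)^148 < 1`, and
`x^5 exp (-x / 3200) → 0` along `x = 2^d` (`Real.tendsto_pow_mul_exp_neg_atTop_nhds_zero`). -/
theorem err_tendsto : Filter.Tendsto (fun d : ℕ => (2 * 2 ^ d : ℝ) ^ 5 * err d (150 * (d + 1)))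
    Filter.atTop (nhds 0) := by
  have h1 : Filter.Tendsto (fun d : ℕ => (32 * (39 / 40 : ℝ) ^ 148) ^ (d + 1)) Filter.atTop (nhds 0) :=
    (tendsto_pow_atTop_nhds_zero_of_lt_one (by positivity) (by norm_num)).comp
      (Filter.tendsto_add_atTop_nat 1)
  have h2 : Filter.Tendsto (fun d : ℕ => ((2 : ℝ) ^ d / 3200)) Filter.atTop Filter.atTop :=
    (tendsto_pow_atTop_atTop_of_one_lt (by norm_num)).atTop_div_const (by norm_num)
  have h3 := ((Real.tendsto_pow_mul_exp_neg_atTop_nhds_zero 5).comp h2).const_mul (40 * 6400 ^ 5)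
  have h4 := h1.add h3
  rw [mul_zero, add_zero] at h4
  refine h4.congr fun d => ?_
  simp only [err, Function.comp]
  rw [show 150 * (d + 1) = 148 * (d + 1) + 2 * (d + 1) by ring, pow_add _ (148 * (d + 1)),
    mul_div_assoc, div_self (by positivity), mul_one, pow_mul, mul_pow, mul_add,
    show (32 : ℝ) = 2 ^ 5 by norm_num, ← pow_mul, mul_comm 5, pow_mul, pow_succ' (2 : ℝ) d]
  push_cast
  rw [neg_div]
  ring

end Crest.Agent.R155
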