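import Crest.Agent.R155.Good
import Crest.Agent.R155.L2a

/-!
Row 155.  The truncated law of one round.
-/

set_option autoImplicit false

namespace Crest.Agent.R155

open Equiv

variable {m : ℕ}

open Classical in
/-- the law of `t` shuffles -/
noncomputable def law (m t : ℕ) (g : Perm (Pos m)) : ℝ :=
  av (fun cs : Fin t → Coin m => if sig t cs = g then 1 else 0)

lemma law_nonneg (m t : ℕ) (g : Perm (Pos m)) : 0 ≤ law m t g :=
  av_nonneg fun _ => by split_ifs <;> norm_num
lemma sum_law (m t : ℕ) : ∑ g, law m t g = 1 := by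
  unfold law
  rw [← av_sum]
  simp only [Finset.sum_ite_eq, Finset.mem_univ, if_true, av_const]

lemma law_conv (m t : ℕ) (f : Perm (Pos m) → ℝ) (g : Perm (Pos m)) :
    conv (law m t) f g = av (fun cs : Fin t → Coin m => f ((sig t cs)⁻¹ * g)) := by
  unfold conv law
  simp only [← av_mul_right]
  rw [← av_sum]
  refine av_congr fun cs => ?_
  simp only [ite_mul, one_mul, zero_mul, Finset.sum_ite_eq, Finset.mem_univ, if_true]

lemma law_succ (m t : ℕ) (g : Perm (Pos m)) :
    law m (t + 1) g = av (fun c : Coin m => law m t ((stepE c)⁻¹ * g)) := by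
  unfold law
  rw [av_snoc, av_comm]
  refine av_congr fun c => av_congr fun cs => ?_
  rw [sig_snoc]
  exact if_congr eq_inv_mul_iff_mul_eq.symm rfl rfl

/-- Plan: `law m (t+1) = conv (law m 1) (law m t)` by `av_snoc`, `sig_snoc`; `conv` is associative and
`conv (law m 0) f = f`; induction on `T`. -/
lemma law_add (m t T : ℕ) : law m (t + T) = conv (law m T) (law m t) := by
  induction T with
  | zero =>
    funext g
    rw [law_conv]
    simp only [sig, inv_one, one_mul, av_const, Nat.add_zero]
  | succ T ih =>
    funext g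
    rw [← Nat.add_assoc, law_succ, ih, law_conv, av_snoc, av_comm]
    refine av_congr fun c => ?_
    rw [law_conv]
    refine av_congr fun cs => ?_
    rw [sig_snoc, mul_inv_rev, mul_assoc]

lemma law_rounds (m t T k : ℕ) : law m (t + k * T) = (conv (law m T))^[k] (law m t) := by
  induction k with
  | zero => simp
  | succ k ih => rw [Nat.succ_mul, ← Nat.add_assoc, law_add, ih, Function.iterate_succ_apply']

/-- Plan: `av_snoc`, flip the coin `u` of the last step: `stepE c' = swap (ev u) (od u) * stepE c`. -/
lemma law_swap (t : ℕ) (u : Fin m) (g : Perm (Pos m)) :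
    law m (t + 1) (swap (ev u) (od u) * g) = law m (t + 1) g := by
  rw [law_succ, law_succ, ← av_equiv (condFlip u) (fun c : Coin m => law m t ((stepE c)⁻¹ * g))]
  refine av_congr fun c => ?_
  have : stepE (condFlip u c) = swap (ev u) (od u) * stepE c := by
    ext1 x
    rw [Perm.mul_apply]
    rcases lo_or_hi x with ⟨v, rfl⟩ | ⟨v, rfl⟩
    · rw [stepE_lo, stepE_lo]
      by_cases h : v = u
      · subst h
        rw [condFlip_self]
        cases c v <;> simp
      · rw [condFlip_ne h, swap_apply_of_ne_of_ne] <;> split_ifs <;>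
          simp [ev_inj, od_inj, h, ev_ne_od, (ev_ne_od _ _).symm]
    · rw [stepE_hi, stepE_hi]
      by_cases h : v = u
      · subst h
        rw [condFlip_self]
        cases c v <;> simp
      · rw [condFlip_ne h, swap_apply_of_ne_of_ne] <;> split_ifs <;>
          simp [ev_inj, od_inj, h, ev_ne_od, (ev_ne_od _ _).symm]
  rw [this, mul_inv_rev, swap_inv, mul_assoc]

lemma tv_eq (m t : ℕ) : Crest.ProbabilityR.Shuffle.tvFromUniform m t =
    1 / 2 * ∑ g, |law m t g - 1 / Fintype.card (Perm (Pos m))| := by
  unfold Crest.ProbabilityR.Shuffle.tvFromUniform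
  rw [Fintype.card_perm, Fintype.card_fin]
  congr 1
  refine Finset.sum_congr rfl fun g _ => ?_
  congr 2
  simp only [law, av, Crest.FinProb.uniformProb, Finset.sum_boole]
  congr 3
  ext cs
  simp only [Finset.mem_filter, Finset.mem_univ, true_and, Set.mem_setOf_eq, ← coe_sig]
  exact DFunLike.coe_fn_eq

end Crest.Agent.R155
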