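import Crest.Agent.R155.Law

/-!
Row 155.  The truncated law has nearly uniform marginals.
-/

set_option autoImplicit false

namespace Crest.Agent.R155

open Equiv

/-- the sixteen blocks -/
def blk (m : ℕ) (i : Fin 16) : Finset (Pos m) := Finset.univ.filter fun x => x.val % 16 = i.val

lemma blk_disjoint (m : ℕ) (i j : Fin 16) (h : i ≠ j) : Disjoint (blk m i) (blk m j) := by
  refine Finset.disjoint_filter.2 fun x _ h1 h2 => h (Fin.ext (h1.symm.trans h2))
lemma card_blk {d : ℕ} (hd : 3 ≤ d) (i : Fin 16) : 8 * (blk (2 ^ d) i).card = 2 ^ d := by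
  obtain ⟨e, rfl⟩ := Nat.exists_eq_add_of_le hd
  have h0 : 2 ^ (3 + e) = 8 * 2 ^ e := pow_add _ _ _
  have h1 : (blk (2 ^ (3 + e)) i).map Fin.valEmbedding =
      (Finset.range (2 ^ e)).image fun j => 16 * j + i.val := by
    have hi := i.isLt
    ext y
    simp only [blk, Finset.mem_map, Finset.mem_filter, Finset.mem_univ, true_and,
      Fin.valEmbedding_apply, Finset.mem_image, Finset.mem_range]
    constructor
    · rintro ⟨x, h1, rfl⟩
      have := x.isLt
      exact ⟨x.val / 16, by omega, by omega⟩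
    · rintro ⟨j, h1, rfl⟩
      exact ⟨⟨16 * j + i.val, by omega⟩, by simp only; omega, rfl⟩
  rw [← Finset.card_map Fin.valEmbedding, h1,
    Finset.card_image_of_injective _ fun a b h => by omega, Finset.card_range]
  omega

/-- all sixteen complements are good -/
def GoodAll (m T : ℕ) (cs : Fin T → Coin m) : Prop := ∀ i, GoodL T (blk m i)ᶜ.toList cs

open Classical in
/-- the truncated law -/
noncomputable def law' (m T : ℕ) (g : Perm (Pos m)) : ℝ :=
  av (fun cs : Fin T → Coin m => if GoodAll m T cs ∧ sig T cs = g then 1 else 0)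

lemma law'_nonneg (m T : ℕ) (g : Perm (Pos m)) : 0 ≤ law' m T g := by
  exact av_nonneg fun _ => by split_ifs <;> norm_num
lemma law'_le (m T : ℕ) (g : Perm (Pos m)) : law' m T g ≤ law m T g := by
  refine av_mono fun cs => ?_
  by_cases h : sig T cs = g <;> simp [h]
  split_ifs <;> norm_num

/-- `∑ law' = av (1 GoodAll)`; union bound over the blocks with `goodL_fail` (the complements have
`15 * 2^d / 8 ≤ n` points). -/
theorem law'_mass {d : ℕ} (hd : 3 ≤ d) (T : ℕ) :
    1 - ∑ g, law' (2 ^ d) T g ≤ 16 * ((2 * 2 ^ d : ℝ) ^ 5 * err d T) := by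
  classical
  have h1 : 1 - ∑ g, law' (2 ^ d) T g ≤ ∑ i : Fin 16,
      av fun cs => if GoodL T (blk (2 ^ d) i)ᶜ.toList cs then (0 : ℝ) else 1 := by
    unfold law'
    rw [← av_sum, ← av_sum, sub_le_iff_le_add', ← av_add]
    refine (av_const (C := Fin T → Coin (2 ^ d)) 1).ge.trans (av_mono fun cs => ?_)
    by_cases h : GoodAll (2 ^ d) T cs
    · simp only [h, true_and, Finset.sum_ite_eq, Finset.mem_univ, if_true, le_add_iff_nonneg_right]
      exact Finset.sum_nonneg fun i _ => by split_ifs <;> norm_num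
    · obtain ⟨i, hi⟩ := not_forall.1 h
      simp only [h, false_and, if_false, Finset.sum_const_zero, zero_add]
      refine le_trans ?_ (Finset.single_le_sum (f := fun i : Fin 16 =>
        if GoodL T (blk (2 ^ d) i)ᶜ.toList cs then (0 : ℝ) else 1)
        (fun i _ => by split_ifs <;> norm_num) (Finset.mem_univ i))
      rw [if_neg hi]
  refine h1.trans ((Finset.sum_le_card_nsmul _ _ ((2 * 2 ^ d : ℝ) ^ 5 * err d T)
    fun i _ => ?_).trans (by simp))
  have h2 := card_blk hd i
  have h3 : (blk (2 ^ d) i)ᶜ.toList.length = 2 * 2 ^ d - (blk (2 ^ d) i).card := by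
    rw [Finset.length_toList, Finset.card_compl, Fintype.card_fin]
  refine (goodL_fail T _ (Finset.nodup_toList _) (by omega)).trans ?_
  rw [pow_succ' _ 4, mul_assoc _ (_ ^ 4)]
  refine mul_le_mul_of_nonneg_right ?_ (mul_nonneg (by positivity) (err_nonneg _ _))
  exact_mod_cast h3.le.trans (Nat.sub_le _ _)

lemma trunc_prod {n k : ℕ} (hk : k ≤ n) :
    ∏ j ∈ Finset.range k, (1 + 1 / (n : ℝ)) / (n - j) ≤ 3 * (n - k).factorial / n.factorial := by
  have h1 : (1 + 1 / (n : ℝ)) ^ k ≤ 3 := by
    calc (1 + 1 / (n : ℝ)) ^ k ≤ Real.exp (1 / n) ^ k :=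
          pow_le_pow_left₀ (by positivity) (by rw [add_comm]; exact Real.add_one_le_exp _) k
      _ = Real.exp (k / n) := by rw [← Real.exp_nat_mul, mul_one_div]
      _ ≤ Real.exp 1 :=
          Real.exp_le_exp.2 (div_le_one_of_le₀ (by exact_mod_cast hk) (by positivity))
      _ ≤ 3 := Real.exp_one_lt_three.le
  have h2 : ∏ j ∈ Finset.range k, ((n : ℝ) - j) = n.descFactorial k := by
    rw [Nat.descFactorial_eq_prod_range, Nat.cast_prod]
    exact Finset.prod_congr rfl fun j hj =>
      (Nat.cast_sub ((Finset.mem_range.1 hj).le.trans hk)).symm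
  have h3 : (0 : ℝ) < n.descFactorial k := by exact_mod_cast Nat.descFactorial_pos.2 hk
  have h4 : (0 : ℝ) < (n - k).factorial := by exact_mod_cast Nat.factorial_pos _
  rw [Finset.prod_div_distrib, Finset.prod_const, Finset.card_range, h2,
    ← Nat.factorial_mul_descFactorial hk, Nat.cast_mul, mul_comm 3, mul_div_mul_left _ _ h4.ne']
  exact div_le_div_of_nonneg_right h1 h3.le

/-- Plan: for fixed `cs` at most one `h` has `sig T cs = τ * ofSubtype h`, and then `sig T cs` agrees
with `τ` outside the block; `seq_bound` with `l = (blk m i)ᶜ.toList`, `k = l.length = n - b`,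
`∏_{j<k} (1 + 1/n) / (n - j) = (1 + 1/n)^k * b! / n! ≤ 3 b! / n!` (`(1+1/n)^n ≤ e ≤ 3`),
`Fintype.card_perm`. -/
theorem law'_marg (m T : ℕ) (i : Fin 16) : Marg (law' m T) (blk m i) := by
  classical
  intro τ
  have h1 := seq_bound T τ _ (Finset.nodup_toList (blk m i)ᶜ)
  have h2 := trunc_prod (n := 2 * m) (k := (blk m i)ᶜ.toList.length) (by
    simpa using (blk m i)ᶜ.card_le_univ)
  have h3 : 2 * m - (blk m i)ᶜ.toList.length = (blk m i).card := by
    have := (blk m i).card_le_univ
    rw [Finset.length_toList, Finset.card_compl]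
    rw [Fintype.card_fin] at this ⊢
    omega
  rw [h3, Nat.cast_mul, Nat.cast_ofNat] at h2
  rw [Fintype.card_perm, Fintype.card_perm, Fintype.card_coe, Fintype.card_fin]
  refine le_trans ?_ (h1.trans h2)
  unfold law'
  rw [← av_sum]
  refine av_mono fun cs => ?_
  by_cases h : ∃ h, GoodAll m T cs ∧ sig T cs = τ * Perm.ofSubtype (p := (· ∈ blk m i)) h
  · obtain ⟨h, h4, h5⟩ := h
    have h7 : ∀ b ∈ (blk m i)ᶜ.toList, sig T cs b = τ b := fun b hb => by
      rw [h5, Perm.mul_apply, Perm.ofSubtype_apply_of_not_mem _ (by simpa using hb)]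
    rw [Finset.sum_eq_single h, if_pos ⟨h4, h5⟩, if_pos ⟨h4 i, h7⟩]
    · exact fun h' _ hne => if_neg fun h6 => hne
        (Perm.ofSubtype_injective (mul_left_cancel (h6.2.symm.trans h5)))
    · simp
  · rw [Finset.sum_eq_zero fun h' _ => if_neg fun h6 => h ⟨h', h6⟩]
    split_ifs <;> norm_num

end Crest.Agent.R155
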